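import Vale.Agent.P234Z57.Defs
import Vale.Agent.P216Z57.Ode

/-!
# P234: distance realising curves solve the geodesic equation; uniqueness of solutions
-/

set_option maxSynthPendingDepth 3

open Set Filter Topology Bundle Manifold
open scoped ContDiff

namespace Vale.Agent.P234Z57

open Vale.Agent.P216 Vale.Agent.P216.Local Vale.Agent.P216.Chart

section loc

variable {E : Type*} [NormedAddCommGroup E] [NormedSpace ℝ E] [FiniteDimensional ℝ E]
  {X : Type*} [PseudoMetricSpace X] {U : Set E} {G : E → E →L[ℝ] E →L[ℝ] ℝ} {ψ : E → X}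

omit [FiniteDimensional ℝ E] in
theorem deriv_smooth {x : ℝ → E} {t : ℝ} (h : ContDiffAt ℝ ∞ x t) : ContDiffAt ℝ 1 (deriv x) t :=
  (h.fderiv_right (m := 1) (by norm_cast)).clm_apply (contDiffAt_const (c := (1 : ℝ)))

/-- The Euler-Lagrange equation at time `t`. -/
def EL (G : E → E →L[ℝ] E →L[ℝ] ℝ) (U : Set E) (x : ℝ → E) (t : ℝ) : Prop :=
  x t ∈ U ∧ ContDiffAt ℝ ∞ x t ∧ ∀ w, G (x t) (deriv (deriv x) t) w +
    fderiv ℝ G (x t) (deriv x t) (deriv x t) w = fderiv ℝ G (x t) w (deriv x t) (deriv x t) / 2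

theorem EL.ham (h : LocalMetric U G ψ) {x : ℝ → E} {t : ℝ} (hx : EL G U x t) :
    HasDerivAt (fun s => (x s, G (x s) (deriv x s))) (field G (x t, G (x t) (deriv x t))) t := by
  obtain ⟨hU, h2, he⟩ := hx
  have h3 : HasDerivAt x (deriv x t) t := (h2.differentiableAt (by simp)).hasDerivAt
  have h4 : HasDerivAt (deriv x) (deriv (deriv x) t) t :=
    ((deriv_smooth h2).differentiableAt one_ne_zero).hasDerivAt
  have hG' : DifferentiableAt ℝ G (x t) :=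
    (h.smooth.contDiffAt (h.isOpen.mem_nhds hU)).differentiableAt (by simp)
  have h5 : HasDerivAt (fun s => G (x s)) (fderiv ℝ G (x t) (deriv x t)) t :=
    hG'.hasFDerivAt.comp_hasDerivAt t h3
  have h6 : HasDerivAt (fun s => G (x s) (deriv x s))
      (fderiv ℝ G (x t) (deriv x t) (deriv x t) + G (x t) (deriv (deriv x) t)) t :=
    h5.clm_apply h4
  have h7 : field G (x t, G (x t) (deriv x t)) = (deriv x t,
      fderiv ℝ G (x t) (deriv x t) (deriv x t) + G (x t) (deriv (deriv x) t)) := by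
    simp only [field, h.inverse_apply hU]
    refine Prod.ext rfl (ContinuousLinearMap.ext fun w => ?_)
    have := he w
    simp only [add_apply, smul_apply, quad_apply, smul_eq_mul]
    linarith
  rw [h7]
  exact h3.prodMk h6

theorem EL.unique (h : LocalMetric U G ψ) {x₁ x₂ : ℝ → E} {t₀ : ℝ}
    (h₁ : ∀ᶠ t in 𝓝 t₀, EL G U x₁ t) (h₂ : ∀ᶠ t in 𝓝 t₀, EL G U x₂ t)
    (e0 : x₁ t₀ = x₂ t₀) (e1 : deriv x₁ t₀ = deriv x₂ t₀) : x₁ =ᶠ[𝓝 t₀] x₂ := by
  obtain ⟨K, S, hS, hLip⟩ := (h.contDiffAt_field (q := (x₁ t₀, G (x₁ t₀) (deriv x₁ t₀)))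
    h₁.self_of_nhds.1).exists_lipschitzOnWith
  have hev : ∀ x : ℝ → E, (∀ᶠ t in 𝓝 t₀, EL G U x t) → S ∈ 𝓝 (x t₀, G (x t₀) (deriv x t₀)) →
      ∀ᶠ t in 𝓝 t₀, HasDerivAt (fun s => (x s, G (x s) (deriv x s)))
        (field G (x t, G (x t) (deriv x t))) t ∧ (x t, G (x t) (deriv x t)) ∈ S := by
    intro x hx hxS
    filter_upwards [hx, (hx.self_of_nhds.ham h).continuousAt.eventually hxS] with t ht1 ht2
    exact ⟨ht1.ham h, ht2⟩
  have heq := ODE_solution_unique_of_eventually (v := fun _ => field G) (s := fun _ => S)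
    (K := K) (f := fun t => (x₁ t, G (x₁ t) (deriv x₁ t)))
    (g := fun t => (x₂ t, G (x₂ t) (deriv x₂ t))) (t₀ := t₀)
    (Eventually.of_forall fun _ => hLip) (hev x₁ h₁ hS) (hev x₂ h₂ (by rwa [← e0, ← e1]))
    (by simp only [e0, e1])
  filter_upwards [heq] with t ht
  exact congrArg Prod.fst ht

end loc

variable {E : Type*} [NormedAddCommGroup E] [NormedSpace ℝ E] [FiniteDimensional ℝ E]
  {M : Type*} [MetricSpace M] [ChartedSpace E M] [IsManifold 𝓘(ℝ, E) ∞ M]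
  [RiemannianBundle (fun x : M => TangentSpace 𝓘(ℝ, E) x)]
  [IsContMDiffRiemannianBundle 𝓘(ℝ, E) ∞ E (fun x : M => TangentSpace 𝓘(ℝ, E) x)]
  [IsRiemannianManifold 𝓘(ℝ, E) M]

theorem coef_eq (p : M) (u v z : E) : coef p u v z = metric p z u v :=
  (metric_apply p z u v).symm

theorem eq_iff (p : M) {z : E} (hz : z ∈ dom E p) (a u w : E) :
    coef p a w z + chr p u u w z = 0 ↔
      metric p z a w + fderiv ℝ (metric p) z u u w = fderiv ℝ (metric p) z w u u / 2 := by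
  have hd : DifferentiableAt ℝ (metric (E := E) p) z :=
    ((metric_contDiffOn p).contDiffAt ((isOpen_dom (E := E) p).mem_nhds hz)).differentiableAt
      (by simp)
  have e2 : ∀ u u' u'', fderiv ℝ (coef p u u') z u'' = fderiv ℝ (metric p) z u'' u u' := by
    intro u u' u''
    rw [← P216Z57.fderiv_coef hd]
    have e3 : coef p u u' = fun z => metric p z u u' := funext fun z => coef_eq p u u' z
    rw [e3]
  simp only [chr, e2, coef_eq]
  constructor <;> intro h <;> linarith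

theorem locMin_el {c : ℝ → M} {v t₀ : ℝ} (hv : 0 < v) (h : LocMin c v) {p : M}
    (hps : c t₀ ∈ (extChartAt 𝓘(ℝ, E) p).source) : EL (metric p) (dom E p) (crd E p c) t₀ := by
  have hpd : phi (E := E) p (c t₀) ∈ dom E p := phi_mem_dom p hps
  obtain ⟨ρ, C, hB⟩ := (localMetric (E := E) p).exists_goodBall hpd
  obtain ⟨ε, hε, h1⟩ := nhds_chart p hpd hB.rpos
  rw [psi_phi p hps] at h1
  obtain ⟨ε₁, hε₁, h2⟩ := h t₀
  have hcont : ∀ᶠ t in 𝓝 t₀, dist (c t) (c t₀) < ε :=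
    Metric.tendsto_nhds.1 (h.continuous.continuousAt (x := t₀)) _ hε
  obtain ⟨ε₂, hε₂, h3⟩ := Metric.eventually_nhds_iff.1 hcont
  have hm1 : min ε₁ ε₂ ≤ ε₁ := min_le_left _ _
  have hm2 : min ε₁ ε₂ ≤ ε₂ := min_le_right _ _
  have hm0 : 0 < min ε₁ ε₂ := lt_min hε₁ hε₂
  have hsrc : ∀ t ∈ Icc (t₀ - min ε₁ ε₂ / 2) (t₀ + min ε₁ ε₂ / 2),
      c t ∈ (extChartAt 𝓘(ℝ, E) p).source ∧
        phi p (c t) ∈ Metric.ball (phi (E := E) p (c t₀)) ρ := by
    intro t ht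
    refine h1 _ (h3 ?_)
    rw [Real.dist_eq, abs_lt]
    constructor <;> linarith only [ht.1, hm0, hm2, ht.2]
  have hmin : IsMin (psi (E := E) p) (fun t => phi (E := E) p (c t)) (phi (E := E) p (c t₀)) ρ
      (t₀ - min ε₁ ε₂ / 2) (t₀ + min ε₁ ε₂ / 2) v := by
    refine ⟨by linarith only [hm0], hv, fun t ht => (hsrc t ht).2, fun s hs t ht => ?_⟩
    rw [psi_phi p (hsrc s hs).1, psi_phi p (hsrc t ht).1]
    refine h2 s t ?_ ?_ <;> rw [abs_lt] <;> constructor <;>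
      linarith only [hs.1, hs.2, ht.1, ht.2, hm0, hm1]
  exact ⟨hpd, P216Z57.isMin_eq (localMetric (E := E) p) (metric_contDiffOn p) hB hmin
    ⟨by linarith only [hm0], by linarith only [hm0]⟩⟩

theorem geo_of_locMin {c : ℝ → M} {v : ℝ} (hv : 0 < v) (h : LocMin c v) : IsGeodesic E c := by
  refine ⟨fun t => ?_, fun p t ht w => ?_⟩
  · rw [contMDiffAt_iff_target]
    exact ⟨h.continuous.continuousAt,
      (locMin_el (E := E) hv h (mem_extChartAt_source (c t))).2.1.contMDiffAt⟩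
  · have := locMin_el (E := E) hv h (p := p) (t₀ := t) (by rwa [extChartAt_source])
    exact (eq_iff p this.1 _ _ w).2 (this.2.2 w)

theorem geo_const (x : M) : IsGeodesic E (fun _ : ℝ => x) := by
  refine ⟨contMDiff_const, fun p t ht w => ?_⟩
  have hz : crd E p (fun _ : ℝ => x) t ∈ dom E p := phi_mem_dom p (by rwa [extChartAt_source])
  have e : crd E p (fun _ : ℝ => x) = fun _ => extChartAt 𝓘(ℝ, E) p x := rfl
  refine (eq_iff p hz _ _ w).2 ?_
  rw [e]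
  simp

theorem IsGeodesic.el {c : ℝ → M} (hc : IsGeodesic E c) {p : M} {t : ℝ}
    (ht : c t ∈ (chartAt E p).source) : EL (metric p) (dom E p) (crd E p c) t := by
  have hz : crd E p c t ∈ dom E p := phi_mem_dom p (by rwa [extChartAt_source])
  refine ⟨hz, ?_, fun w => (eq_iff p hz _ _ w).1 (hc.2 p t ht w)⟩
  exact ((contMDiffAt_extChartAt' ht).comp t (hc.1 t)).contDiffAt

theorem IsGeodesic.loc_unique {c₁ c₂ : ℝ → M} (h₁ : IsGeodesic E c₁) (h₂ : IsGeodesic E c₂)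
    {t₀ : ℝ} (e0 : c₁ t₀ = c₂ t₀)
    (e1 : deriv (crd E (c₁ t₀) c₁) t₀ = deriv (crd E (c₁ t₀) c₂) t₀) : c₁ =ᶠ[𝓝 t₀] c₂ := by
  have hn := (chartAt E (c₁ t₀)).open_source.mem_nhds (mem_chart_source E (c₁ t₀))
  have s₁ : ∀ᶠ t in 𝓝 t₀, c₁ t ∈ (chartAt E (c₁ t₀)).source :=
    h₁.1.continuous.continuousAt.eventually hn
  have s₂ : ∀ᶠ t in 𝓝 t₀, c₂ t ∈ (chartAt E (c₁ t₀)).source :=
    h₂.1.continuous.continuousAt.eventually (by rwa [← e0])
  have key := EL.unique (localMetric (E := E) (c₁ t₀)) (s₁.mono fun t ht => h₁.el ht)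
    (s₂.mono fun t ht => h₂.el ht) (congrArg (extChartAt 𝓘(ℝ, E) (c₁ t₀)) e0) e1
  filter_upwards [key, s₁, s₂] with t ht a₁ a₂
  exact (extChartAt 𝓘(ℝ, E) (c₁ t₀)).injOn (by rwa [extChartAt_source])
    (by rwa [extChartAt_source]) ht

omit [FiniteDimensional ℝ E] [RiemannianBundle (fun x : M => TangentSpace 𝓘(ℝ, E) x)]
  [IsContMDiffRiemannianBundle 𝓘(ℝ, E) ∞ E (fun x : M => TangentSpace 𝓘(ℝ, E) x)]
  [IsRiemannianManifold 𝓘(ℝ, E) M] in
theorem deriv_crd {c : ℝ → M} (hc : ContMDiff 𝓘(ℝ, ℝ) 𝓘(ℝ, E) ∞ c) {p : M} {t : ℝ}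
    (ht : c t ∈ (chartAt E p).source) : deriv (crd E p c) t =
      (fun q : TangentBundle 𝓘(ℝ, E) M =>
        (mfderiv 𝓘(ℝ, E) 𝓘(ℝ, E) (extChartAt 𝓘(ℝ, E) p) q.1 q.2 : E)) ⟨c t, vel E c t⟩ := by
  have h1 := mfderiv_comp t (mdifferentiableAt_extChartAt (I := 𝓘(ℝ, E)) ht)
    ((hc t).mdifferentiableAt (by simp))
  rw [mfderiv_eq_fderiv] at h1
  exact DFunLike.congr_fun h1 (1 : ℝ)

theorem geo_unique {c₁ c₂ : ℝ → M} (h₁ : IsGeodesic E c₁) (h₂ : IsGeodesic E c₂) {x : M}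
    {v : TangentSpace 𝓘(ℝ, E) x} (s₁ : Starts c₁ x v) (s₂ : Starts c₂ x v) : c₁ = c₂ := by
  have hopen : IsOpen {t | c₁ =ᶠ[𝓝 t] c₂} :=
    isOpen_iff_mem_nhds.2 fun t ht => eventually_eventually_nhds.2 ht
  have hclosed : IsClosed {t | c₁ =ᶠ[𝓝 t] c₂} := by
    rw [← closure_subset_iff_isClosed]
    intro t₀ ht₀
    have hfreq : ∃ᶠ t in 𝓝 t₀, c₁ =ᶠ[𝓝 t] c₂ := mem_closure_iff_frequently.1 ht₀
    have e0 : c₁ t₀ = c₂ t₀ :=
      tendsto_nhds_unique_of_frequently_eq h₁.1.continuous.continuousAt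
        h₂.1.continuous.continuousAt (hfreq.mono fun t ht => ht.eq_of_nhds)
    have a₁ := h₁.el (mem_chart_source E (c₁ t₀))
    have a₂ := h₂.el (p := c₁ t₀) (t := t₀) (e0 ▸ mem_chart_source E (c₁ t₀))
    refine h₁.loc_unique h₂ e0 (tendsto_nhds_unique_of_frequently_eq
      (deriv_smooth a₁.2.1).continuousAt (deriv_smooth a₂.2.1).continuousAt
      (hfreq.mono fun t ht => EventuallyEq.deriv_eq ?_))
    filter_upwards [ht] with s hs
    exact congrArg (extChartAt 𝓘(ℝ, E) (c₁ t₀)) hs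
  have e := s₁.trans s₂.symm
  have e0 : c₁ 0 = c₂ 0 := congrArg TotalSpace.proj e
  have h0 : c₁ =ᶠ[𝓝 0] c₂ := by
    refine h₁.loc_unique h₂ e0 ?_
    rw [deriv_crd h₁.1 (mem_chart_source E (c₁ 0)),
      deriv_crd h₂.1 (p := c₁ 0) (e0 ▸ mem_chart_source E (c₁ 0)), e]
  have huniv := IsClopen.eq_univ ⟨hclosed, hopen⟩ ⟨0, h0⟩
  funext t
  have : t ∈ {t | c₁ =ᶠ[𝓝 t] c₂} := huniv ▸ mem_univ t
  exact EventuallyEq.eq_of_nhds this

end Vale.Agent.P234Z57
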