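import Vale.Agent.P234.Defs

/-!
# P234: geodesics through the geodesic equation, and the exponential map
-/

open Bundle Manifold
open scoped ContDiff

namespace Vale.Agent.P234Z57

variable {E : Type*} [NormedAddCommGroup E] [NormedSpace ℝ E]
  {M : Type*} [TopologicalSpace M] [ChartedSpace E M]

/-- The inverse of the chart at `p`. -/
noncomputable def par (p : M) (z : E) : M := (extChartAt 𝓘(ℝ, E) p).symm z

/-- The differential at `z` of the inverse of the chart at `p`, applied to `u`. -/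
noncomputable def vec (p : M) (z u : E) : TangentSpace 𝓘(ℝ, E) (par p z) :=
  mfderiv 𝓘(ℝ, E) 𝓘(ℝ, E) (par p) z u

variable (E) in
/-- The curve `c` in the chart at `p`. -/
noncomputable def crd (p : M) (c : ℝ → M) (t : ℝ) : E := extChartAt 𝓘(ℝ, E) p (c t)

variable (E) in
/-- The velocity `c'(t)`. -/
noncomputable def vel (c : ℝ → M) (t : ℝ) : TangentSpace 𝓘(ℝ, E) (c t) :=
  mfderiv 𝓘(ℝ, ℝ) 𝓘(ℝ, E) c t (1 : ℝ)

/-- `c(0) = x` and `c'(0) = v`. -/
def Starts (c : ℝ → M) (x : M) (v : TangentSpace 𝓘(ℝ, E) x) : Prop :=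
  (⟨c 0, vel E c 0⟩ : TangentBundle 𝓘(ℝ, E) M) = ⟨x, v⟩

variable [RiemannianBundle (fun x : M => TangentSpace 𝓘(ℝ, E) x)]

/-- The coefficients `g_ij u^i v^j` of the metric at the point with coordinates `z` in the chart
at `p`. -/
noncomputable def coef (p : M) (u v z : E) : ℝ := inner ℝ (vec p z u) (vec p z v)

/-- The Christoffel symbols `Γ_(l,ij) u^i v^j w^l`,
`Γ_(l,ij) = (∂_i g_jl + ∂_j g_il - ∂_l g_ij) / 2`. -/
noncomputable def chr (p : M) (u v w z : E) : ℝ :=
  (fderiv ℝ (coef p v w) z u + fderiv ℝ (coef p u w) z v - fderiv ℝ (coef p u v) z w) / 2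

variable (E) in
/-- A geodesic: a smooth curve whose coordinates `x` in every chart satisfy
`g_lk x''^k + Γ_(l,ij) x'^i x'^j = 0` for all `l`. -/
def IsGeodesic (c : ℝ → M) : Prop :=
  ContMDiff 𝓘(ℝ, ℝ) 𝓘(ℝ, E) ∞ c ∧ ∀ (p : M) (t : ℝ), c t ∈ (chartAt E p).source → ∀ w : E,
    coef p (deriv (deriv (crd E p c)) t) w (crd E p c t) +
      chr p (deriv (crd E p c) t) (deriv (crd E p c) t) w (crd E p c t) = 0

/-- The exponential map: `exp x v = c(1)` for the geodesic `c` with `c(0) = x`, `c'(0) = v`. -/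
noncomputable def exp (x : M) (v : TangentSpace 𝓘(ℝ, E) x) : M :=
  @Classical.epsilon (ℝ → M) ⟨fun _ => x⟩ (fun c => IsGeodesic E c ∧ Starts c x v) 1

end Vale.Agent.P234Z57
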