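import Vale.Agent.P234Z57.Geo
import Vale.Agent.P234.Bd3.B3

/-!
# P234: the exponential map of the geodesic equation is the map of `IsExp`
-/

open Set Filter Topology Bundle Manifold
open scoped ContDiff

namespace Vale.Agent.P234Z57

open Vale.Agent.P234

variable {E : Type*} [NormedAddCommGroup E] [NormedSpace ℝ E] [FiniteDimensional ℝ E]
  {M : Type*} [MetricSpace M] [ChartedSpace E M] [IsManifold 𝓘(ℝ, E) ∞ M]
  [RiemannianBundle (fun x : M => TangentSpace 𝓘(ℝ, E) x)]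
  [IsContMDiffRiemannianBundle 𝓘(ℝ, E) ∞ E (fun x : M => TangentSpace 𝓘(ℝ, E) x)]
  [IsRiemannianManifold 𝓘(ℝ, E) M] {e : ∀ x : M, TangentSpace 𝓘(ℝ, E) x → M}

theorem ray_geo (he : IsExp e) (x : M) (v : TangentSpace 𝓘(ℝ, E) x) :
    IsGeodesic E (fun t : ℝ => e x (t • v)) ∧ Starts (fun t : ℝ => e x (t • v)) x v := by
  constructor
  · by_cases hv : v = 0
    · have : (fun t : ℝ => e x (t • v)) = fun _ => x := by
        funext t
        rw [hv, smul_zero, he.map_zero]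
      rw [this]
      exact geo_const x
    · have h0 : 0 < ‖v‖ := norm_pos_iff.2 hv
      obtain ⟨ρ, hρ, h⟩ := he.minimizing
      refine geo_of_locMin h0 fun t => ⟨ρ / ‖v‖ / 2, by positivity, fun s₁ s₂ h1 h2 => ?_⟩
      rw [abs_sub_comm s₁ s₂]
      refine h x v s₁ s₂ ?_
      have h3 : |s₂ - s₁| ≤ ρ / ‖v‖ := by
        have := abs_sub_le s₂ t s₁
        rw [abs_sub_comm t s₁] at this
        linarith
      rwa [le_div_iff₀ h0, mul_comm] at h3
  · have h1 : e x ((0 : ℝ) • v) = x := by rw [zero_smul, he.map_zero]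
    exact TotalSpace.ext h1 (heq_of_eq (he.velocity x v))

theorem exists_unique_geo (he : IsExp e) (x : M) (v : TangentSpace 𝓘(ℝ, E) x) :
    ∃! c : ℝ → M, IsGeodesic E c ∧ Starts c x v :=
  ⟨_, ray_geo he x v, fun _ hc => geo_unique hc.1 (ray_geo he x v).1 hc.2 (ray_geo he x v).2⟩

theorem exp_eq (he : IsExp e) : (exp : ∀ x : M, TangentSpace 𝓘(ℝ, E) x → M) = e := by
  funext x v
  have h1 := @Classical.epsilon_spec (ℝ → M) (fun c => IsGeodesic E c ∧ Starts c x v)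
    ⟨_, ray_geo he x v⟩
  have h2 := geo_unique h1.1 (ray_geo he x v).1 h1.2 (ray_geo he x v).2
  have h3 := congrFun h2 1
  rw [one_smul] at h3
  exact h3

theorem main [CompactSpace M] [ConnectedSpace M] :
    (∀ (x : M) (v : TangentSpace 𝓘(ℝ, E) x), ∃! c : ℝ → M, IsGeodesic E c ∧ Starts c x v) ∧
    (∀ (x : M) (v : TangentSpace 𝓘(ℝ, E) x) (c : ℝ → M), IsGeodesic E c → Starts c x v →
      ∀ t : ℝ, exp x (t • v) = c t) ∧
    (∀ x : M, IsOpen (injDomain (E := E) exp x)) ∧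
    (∀ x : M, ∀ v ∈ injDomain (E := E) exp x, ∀ᶠ p in 𝓝 (x, exp x v),
      ContMDiffAt (𝓘(ℝ, E).prod 𝓘(ℝ, E)) 𝓘(ℝ, ℝ) ∞ (fun p : M × M => cost p.1 p.2) p) ∧
    (WeakMTW (E := E) (M := M) exp → ∀ x : M, Convex ℝ (injDomain (E := E) exp x)) := by
  obtain ⟨e, he, -, hconv⟩ := main_unconditional (E := E) (M := M)
  rw [exp_eq he]
  refine ⟨exists_unique_geo he, fun x v c hc hs t => ?_, (facts_of_isExp he).isOpen_injDomain,
    (facts_of_isExp he).smooth_cost, hconv⟩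
  exact congrFun (geo_unique (ray_geo he x v).1 hc (ray_geo he x v).2 hs) t

end Vale.Agent.P234Z57
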